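import Mathlib

set_option autoImplicit false

namespace Vale.Agent.Results.P043.TwoPoint

/-- Every two-element subset `{u, w}` of `ℤ^d` is a translational tile and admits a periodic tiling:
there is `A` with `A ⊕ {u, w} = ℤ^d` that is invariant under the finite-index subgroup `N ℤ^d`. -/
theorem result (d : ℕ) (u w : Fin d → ℤ) (huw : u ≠ w) :
    ∃ A : Set (Fin d → ℤ),
      (∀ y : Fin d → ℤ, ∃! p : (Fin d → ℤ) × (Fin d → ℤ),
        p.1 ∈ A ∧ (p.2 = u ∨ p.2 = w) ∧ p.1 + p.2 = y) ∧
      ∃ N : ℤ, 0 < N ∧ ∀ h : Fin d → ℤ, (∀ j, N ∣ h j) → ∀ x, x ∈ A ↔ x + h ∈ A := by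
  obtain ⟨i, hi⟩ : ∃ i, u i ≠ w i := by
    by_contra hcon
    push Not at hcon
    exact huw (funext hcon)
  set c : ℤ := w i - u i with hc
  have hc0 : c ≠ 0 := by
    rw [hc]
    intro h0
    apply hi
    omega
  refine ⟨{x | (x i / c) % 2 = 0}, ?_, 2 * (c * c), ?_, ?_⟩
  · intro y
    have hshift : (y i - w i) / c = (y i - u i) / c - 1 := by
      have e : y i - w i = (y i - u i) + (-1) * c := by rw [hc]; ring
      rw [e, Int.add_mul_ediv_right _ _ hc0]
      ring
    by_cases hpar : ((y i - u i) / c) % 2 = 0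
    · refine ⟨(y - u, u), ⟨?_, Or.inl rfl, by simp⟩, ?_⟩
      · show ((y - u) i / c) % 2 = 0
        simpa using hpar
      · rintro ⟨p1, p2⟩ ⟨hp1, hp2, hp3⟩
        simp only at hp1 hp2 hp3
        rcases hp2 with rfl | rfl
        · have : p1 = y - p2 := by rw [← hp3]; simp
          rw [this]
        · exfalso
          have : p1 = y - p2 := by rw [← hp3]; simp
          rw [this] at hp1
          have hp1' : ((y i - p2 i) / c) % 2 = 0 := by simpa using hp1
          rw [hshift] at hp1'
          omega
    · refine ⟨(y - w, w), ⟨?_, Or.inr rfl, by simp⟩, ?_⟩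
      · show ((y - w) i / c) % 2 = 0
        have : (y - w) i = y i - w i := rfl
        rw [this, hshift]
        omega
      · rintro ⟨p1, p2⟩ ⟨hp1, hp2, hp3⟩
        simp only at hp1 hp2 hp3
        rcases hp2 with rfl | rfl
        · exfalso
          have : p1 = y - p2 := by rw [← hp3]; simp
          rw [this] at hp1
          have hp1' : ((y i - p2 i) / c) % 2 = 0 := by simpa using hp1
          exact hpar hp1'
        · have : p1 = y - p2 := by rw [← hp3]; simp
          rw [this]
  · have : 0 < c * c := mul_self_pos.mpr hc0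
    omega
  · intro h hh x
    obtain ⟨k, hk⟩ := hh i
    have e : (x + h) i = x i + (2 * c * k) * c := by
      show x i + h i = _
      rw [hk]; ring
    show (x i / c) % 2 = 0 ↔ ((x + h) i / c) % 2 = 0
    rw [e, Int.add_mul_ediv_right _ _ hc0]
    have : (x i / c + 2 * c * k) % 2 = (x i / c) % 2 := by
      have e2 : x i / c + 2 * c * k = x i / c + 2 * (c * k) := by ring
      rw [e2]
      omega
    rw [this]

end Vale.Agent.Results.P043.TwoPoint
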